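import Crest.Agent.N337.Rep.Det
import Crest.Agent.N337.Slot.Defs

-- ▼ part N337/Rep/Sum
section

/-!
# Row 337, RepStmt, part 2: sums over invariant colourings (`none` = green, `some _` = red)
-/

set_option autoImplicit false
set_option linter.unusedSectionVars false

namespace Crest.Agent.N337.Rep

open Finset Equiv Matrix

variable {S : Type} [Fintype S] [DecidableEq S]

/-- weight of the red points. -/
def zr (z : S → ℝ) (ω : S → Option Bool) : ℝ := ∏ v, if ω v = none then 1 else z v
/-- weights of the green points. -/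
def zg (z : S → ℝ) (ω : S → Option Bool) : S → ℝ := fun v => if ω v = none then z v else 0
/-- weight of the down points. -/
def zd (z : S → ℝ) (D : S → Bool) : ℝ := ∏ v, if D v = true then z v else 1
/-- `1 - N` on the green points. -/
def gm (π : Perm S) (z : S → ℝ) (ω : S → Option Bool) : Matrix S S ℝ :=
  mat π (fun _ => 1) (zg z ω)

theorem sum_inv_prod {κ : Type} [Fintype κ] [DecidableEq κ] (π : Perm S) (F : (S → κ) → ℝ)
    (W : Orb π → κ → ℝ) (h : ∀ c : Orb π → κ, F (c ∘ o π) = ∏ g, W g (c g)) :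
    ∑ ω : S → κ, (if ∀ v, ω (π v) = ω v then F ω else 0) = ∏ g, ∑ k, W g k := by
  rw [sum_inv, prod_univ_sum, Fintype.piFinset_univ]
  exact sum_congr rfl fun c _ => h c

lemma ind_prod {π : Perm S} (B : Finset S) (P : Orb π → Prop) [DecidablePred P] :
    (if ∀ v ∈ B, P (o π v) then (1 : ℝ) else 0) =
      ∏ g, if g ∈ B.image (o π) → P g then 1 else 0 := by
  rw [prod_boole]
  simp

lemma zr_comp (π : Perm S) (z : S → ℝ) (c : Orb π → Option Bool) :
    zr z (c ∘ o π) = ∏ g, if c g = none then 1 else pr π z g := by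
  rw [zr, ← prod_pr π]
  refine prod_congr rfl fun g _ => ?_
  split_ifs with h
  · exact pr_one fun v hv => by simp [hv, h]
  · exact pr_congr fun v hv => by simp [hv, h]

lemma zd_comp (π : Perm S) (z : S → ℝ) (c : Orb π → Bool) :
    zd z (c ∘ o π) = ∏ g, if c g = true then pr π z g else 1 := by
  rw [zd, ← prod_pr π]
  refine prod_congr rfl fun g _ => ?_
  split_ifs with h
  · exact pr_congr fun v hv => by simp [hv, h]
  · exact pr_one fun v hv => by simp [hv, h]

lemma pr_zg (π : Perm S) (z : S → ℝ) (c : Orb π → Option Bool) (g : Orb π) :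
    pr π (zg z (c ∘ o π)) g = if c g = none then pr π z g else 0 := by
  split_ifs with h
  · exact pr_congr fun v hv => by simp [zg, hv, h]
  · obtain ⟨v, hv⟩ := o_surj π g
    exact pr_zero hv (by simp [zg, hv, h])

lemma det_gm (π : Perm S) (z : S → ℝ) (ω : S → Option Bool) :
    (gm π z ω).det = ∏ g, (1 - pr π (zg z ω) g) := by
  rw [gm, det_mat]
  exact prod_congr rfl fun g _ => by rw [pr_one fun _ _ => rfl]

variable {z : S → ℝ}

lemma det_gm_nonneg (h0 : ∀ v, 0 ≤ z v) (h1 : ∀ v, z v ≤ 1) (π : Perm S) (ω : S → Option Bool) :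
    0 ≤ (gm π z ω).det := by
  rw [det_gm]
  refine prod_nonneg fun g _ => sub_nonneg.2 (pr_le_one (fun v => ?_) (fun v => ?_) g)
  · unfold zg; split_ifs; exacts [h0 v, le_rfl]
  · unfold zg; split_ifs; exacts [h1 v, zero_le_one]

lemma zr_nonneg (h0 : ∀ v, 0 ≤ z v) (ω : S → Option Bool) : 0 ≤ zr z ω :=
  prod_nonneg fun v _ => by split_ifs; exacts [zero_le_one, h0 v]

lemma sumR0 (π : Perm S) (z : S → ℝ) (B : Finset S) :
    ∑ ω : S → Option Bool, (if ∀ v, ω (π v) = ω v then
      zr z ω * (gm π z ω).det * (if ∀ v ∈ B, ω v ≠ none then 1 else 0) else 0) =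
      ∏ g, if g ∈ B.image (o π) then 2 * pr π z g else 1 + pr π z g := by
  rw [sum_inv_prod π _ fun g k => (if k = none then 1 else pr π z g) *
    (1 - if k = none then pr π z g else 0) * (if g ∈ B.image (o π) → k ≠ none then 1 else 0)]
  · refine prod_congr rfl fun g _ => ?_
    by_cases h : g ∈ B.image (o π)
    · simp only [h, Fintype.sum_option, Fintype.sum_bool]; simp; ring
    · simp only [h, Fintype.sum_option, Fintype.sum_bool]; simp
  · intro c
    rw [prod_mul_distrib, prod_mul_distrib, zr_comp, det_gm,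
      ← ind_prod B fun g => c g ≠ none]
    simp only [pr_zg]; rfl

lemma sumD0 (π : Perm S) (z : S → ℝ) (B : Finset S) :
    ∑ D : S → Bool, (if ∀ v, D (π v) = D v then
      zd z D * (if ∀ v ∈ B, D v = true then 1 else 0) else 0) =
      ∏ g, if g ∈ B.image (o π) then pr π z g else 1 + pr π z g := by
  rw [sum_inv_prod π _ fun g k => (if k = true then pr π z g else 1) *
    (if g ∈ B.image (o π) → k = true then 1 else 0)]
  · refine prod_congr rfl fun g _ => ?_
    by_cases h : g ∈ B.image (o π)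
    · simp only [h, Fintype.sum_bool]; simp
    · simp only [h, Fintype.sum_bool]; simp; ring
  · intro c
    rw [prod_mul_distrib, zd_comp, ← ind_prod B fun g => c g = true]
    rfl

lemma prod_le_two_pow {π : Perm S} (B : Finset S) {f f' : Orb π → ℝ} (h0 : ∀ g, 0 ≤ f g)
    (h0' : ∀ g, 0 ≤ f' g)
    (h : ∀ g, f g ≤ (if g ∈ B.image (o π) then 2 else 1) * f' g) :
    ∏ g, f g ≤ 2 ^ B.card * ∏ g, f' g := by
  calc ∏ g, f g ≤ ∏ g, (if g ∈ B.image (o π) then 2 else 1) * f' g :=
        prod_le_prod (fun g _ => h0 g) fun g _ => h g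
    _ = 2 ^ (B.image (o π)).card * ∏ g, f' g := by
        rw [prod_mul_distrib, prod_ite_mem, univ_inter, prod_const]
    _ ≤ _ := mul_le_mul_of_nonneg_right (pow_le_pow_right₀ one_le_two card_image_le)
        (prod_nonneg fun g _ => h0' g)

theorem sum0_le (h0 : ∀ v, 0 ≤ z v) (π : Perm S) (B : Finset S) :
    ∑ ω : S → Option Bool, (if ∀ v, ω (π v) = ω v then
      zr z ω * (gm π z ω).det * (if ∀ v ∈ B, ω v ≠ none then 1 else 0) else 0) ≤
      2 ^ B.card * ∑ D : S → Bool, (if ∀ v, D (π v) = D v then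
        zd z D * (if ∀ v ∈ B, D v = true then 1 else 0) else 0) := by
  rw [sumR0, sumD0]
  refine prod_le_two_pow B (fun g => ?_) (fun g => ?_) fun g => ?_
  · have := pr_nonneg (π := π) h0 g; split_ifs <;> linarith
  · have := pr_nonneg (π := π) h0 g; split_ifs <;> linarith
  · split_ifs <;> linarith

theorem sumD_eq (π : Perm S) (z : S → ℝ) :
    ∑ D : S → Bool, (if ∀ v, D (π v) = D v then zd z D else 0) = ∏ g, (1 + pr π z g) := by
  simpa using sumD0 π z ∅

theorem sum0_eq (π : Perm S) (z : S → ℝ) :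
    ∑ ω : S → Option Bool, (if ∀ v, ω (π v) = ω v then zr z ω * (gm π z ω).det else 0) =
      ∑ D : S → Bool, (if ∀ v, D (π v) = D v then zd z D else 0) := by
  rw [sumD_eq]
  simpa using sumR0 π z ∅

theorem one_le_sumD (h0 : ∀ v, 0 ≤ z v) (π : Perm S) :
    1 ≤ ∑ D : S → Bool, (if ∀ v, D (π v) = D v then zd z D else 0) := by
  rw [sumD_eq]
  calc (1 : ℝ) = ∏ _g : Orb π, (1 : ℝ) := by simp
    _ ≤ _ := prod_le_prod (fun _ _ => zero_le_one) fun g _ => by
        have := pr_nonneg (π := π) h0 g; linarith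

theorem sumD_le (h0 : ∀ v, 0 ≤ z v) (h1 : ∀ v, z v ≤ 1) (π : Perm S) :
    ∑ D : S → Bool, (if ∀ v, D (π v) = D v then zd z D else 0) ≤ 2 ^ Fintype.card (Orb π) := by
  rw [sumD_eq]
  calc ∏ g, (1 + pr π z g) ≤ ∏ _g : Orb π, (2 : ℝ) :=
        prod_le_prod (fun g _ => by have := pr_nonneg (π := π) h0 g; linarith) fun g _ => by
          have := pr_le_one (π := π) h0 h1 g; linarith
    _ = _ := by simp

/-! ### one creation at `u`, one annihilation at `v` -/

lemma adj_gm {π π' : Perm S} {u v : S} (huv : u ≠ v) (hπ : π' = swap u v * π) (z : S → ℝ)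
    (c : Orb π' → Option Bool) (hu : c (o π' u) = none) :
    (gm π z (c ∘ o π')).adjugate v u = ∏ g, ((if g = o π' u then 0 else 1) -
      if g = o π' v then 0 else if g = o π' u then -pr π' z g else
        if c g = none then pr π' z g else 0) := by
  rw [gm, adj_mat π _ huv, ← hπ, det_mat]
  refine prod_congr rfl fun g _ => ?_
  congr 1
  · split_ifs with h
    · exact pr_zero h.symm (by simp)
    · exact pr_one fun w hw => if_neg fun h' => h (by rw [← hw, h'])
  · split_ifs with h h' h''
    · exact pr_zero h.symm (by simp)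
    · subst h'
      refine pr_neg (by simp [huv, zg, hu]) fun w hw hw' => ?_
      have : w ≠ v := fun h' => h (by rw [← hw', h'])
      simp [this, hw, zg, hw', hu]
    · refine pr_congr fun w hw => ?_
      have h1 : w ≠ v := fun e => h (by rw [← hw, e])
      have h2 : w ≠ u := fun e => h' (by rw [← hw, e])
      simp [h1, h2, zg, hw, h'']
    · obtain ⟨w, hw⟩ := o_surj π' g
      have h1 : w ≠ v := fun e => h (by rw [← hw, e])
      have h2 : w ≠ u := fun e => h' (by rw [← hw, e])
      exact pr_zero hw (by simp [h1, h2, zg, hw, h''])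

lemma sumR1 {π π' : Perm S} {u v : S} (huv : u ≠ v) (hπ : π' = swap u v * π) (z : S → ℝ)
    (B : Finset S) :
    ∑ ω : S → Option Bool, (if ∀ w, ω (π w) = ω w then
      zr z ω * (if ω v = none ∧ ω u = none then (gm π z ω).adjugate v u else 0) *
        (if ∀ w ∈ B, ω w ≠ none then 1 else 0) else 0) =
      ∏ g, if g = o π' u then (if g = o π' v ∨ g ∈ B.image (o π') then 0 else pr π' z g)
        else if g = o π' v then (if g ∈ B.image (o π') then 0 else 1)
        else if g ∈ B.image (o π') then 2 * pr π' z g else 1 + pr π' z g := by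
  have h1 : ∀ ω : S → Option Bool, (if ∀ w, ω (π w) = ω w then
      zr z ω * (if ω v = none ∧ ω u = none then (gm π z ω).adjugate v u else 0) *
        (if ∀ w ∈ B, ω w ≠ none then 1 else 0) else 0) =
      (if ∀ w, ω (π' w) = ω w then
      zr z ω * (if ω v = none ∧ ω u = none then (gm π z ω).adjugate v u else 0) *
        (if ∀ w ∈ B, ω w ≠ none then 1 else 0) else 0) := by
    intro ω
    by_cases h : ω v = none ∧ ω u = none
    · have : ∀ w, ω (π' w) = ω (π w) := fun w => by
        rw [hπ, Perm.mul_apply, swap_apply_def]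
        split_ifs with h1 h2
        · rw [h1, h.1, h.2]
        · rw [h2, h.1, h.2]
        · rfl
      simp only [this]
    · simp [h]
  simp only [h1]
  rw [sum_inv_prod π' _ fun g k => (if k = none then 1 else pr π' z g) *
    ((if g ∈ ({v, u} : Finset S).image (o π') → k = none then 1 else 0) *
      ((if g = o π' u then 0 else 1) - if g = o π' v then 0 else if g = o π' u then -pr π' z g else
        if k = none then pr π' z g else 0)) * (if g ∈ B.image (o π') → k ≠ none then 1 else 0)]
  · refine prod_congr rfl fun g _ => ?_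
    have hm : g ∈ ({v, u} : Finset S).image (o π') ↔ g = o π' v ∨ g = o π' u := by
      simp
    simp only [hm, Fintype.sum_option, Fintype.sum_bool]
    obtain hP | hP := (Classical.propComplete (g ∈ B.image (o π'))) <;>
    obtain hQ | hQ := (Classical.propComplete (g = o π' u)) <;>
    obtain hR | hR := (Classical.propComplete (g = o π' v)) <;>
    simp only [hP, hQ, hR] <;> simp <;> ring
  · intro c
    rw [prod_mul_distrib, prod_mul_distrib, prod_mul_distrib, zr_comp,
      ← ind_prod B fun g => c g ≠ none, ← ind_prod {v, u} fun g => c g = none]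
    congr 2
    by_cases h : (c ∘ o π') v = none ∧ (c ∘ o π') u = none
    · rw [if_pos h, if_pos (by simpa using h), one_mul, adj_gm huv hπ z c h.2]
    · rw [if_neg h, if_neg (by simpa using h), zero_mul]

lemma sumD1 (π' : Perm S) (u v : S) (z : S → ℝ) (B : Finset S) :
    ∑ D : S → Bool, (if ∀ w, D (π' w) = D w then
      zd z D * (if D u = true ∧ D v = false then 1 else 0) *
        (if ∀ w ∈ B, D w = true then 1 else 0) else 0) =
      ∏ g, if g = o π' u then (if g = o π' v then 0 else pr π' z g)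
        else if g = o π' v then (if g ∈ B.image (o π') then 0 else 1)
        else if g ∈ B.image (o π') then pr π' z g else 1 + pr π' z g := by
  rw [sum_inv_prod π' _ fun g k => (if k = true then pr π' z g else 1) *
    ((if g ∈ ({u} : Finset S).image (o π') → k = true then 1 else 0) *
      (if g ∈ ({v} : Finset S).image (o π') → k = false then 1 else 0)) *
    (if g ∈ B.image (o π') → k = true then 1 else 0)]
  · refine prod_congr rfl fun g _ => ?_
    simp only [image_singleton, mem_singleton, Fintype.sum_bool]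
    obtain hP | hP := (Classical.propComplete (g ∈ B.image (o π'))) <;>
    obtain hQ | hQ := (Classical.propComplete (g = o π' u)) <;>
    obtain hR | hR := (Classical.propComplete (g = o π' v)) <;>
    simp only [hP, hQ, hR] <;> simp <;> ring
  · intro c
    rw [prod_mul_distrib, prod_mul_distrib, prod_mul_distrib, zd_comp,
      ← ind_prod B fun g => c g = true, ← ind_prod {u} fun g => c g = true,
      ← ind_prod {v} fun g => c g = false]
    congr 2
    simp only [Function.comp_apply, mem_singleton, forall_eq]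
    by_cases h : c (o π' u) = true <;> by_cases h' : c (o π' v) = false <;> simp [h, h']

theorem sum1_le (h0 : ∀ v, 0 ≤ z v) (π : Perm S) {u v : S} (huv : u ≠ v) (B : Finset S) :
    ∑ ω : S → Option Bool, (if ∀ w, ω (π w) = ω w then
      zr z ω * (if ω v = none ∧ ω u = none then (gm π z ω).adjugate v u else 0) *
        (if ∀ w ∈ B, ω w ≠ none then 1 else 0) else 0) ≤
      2 ^ B.card * ∑ D : S → Bool, (if ∀ w, D ((swap u v * π) w) = D w then
        zd z D * (if D u = true ∧ D v = false then 1 else 0) *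
          (if ∀ w ∈ B, D w = true then 1 else 0) else 0) := by
  rw [sumR1 huv rfl, sumD1]
  refine prod_le_two_pow B (fun g => ?_) (fun g => ?_) fun g => ?_
  · have := pr_nonneg (π := swap u v * π) h0 g; split_ifs <;> linarith
  · have := pr_nonneg (π := swap u v * π) h0 g; split_ifs <;> linarith
  · have := pr_nonneg (π := swap u v * π) h0 g
    split_ifs <;> first | linarith | tauto

theorem sum1_eq (z : S → ℝ) (π : Perm S) {u v : S} (huv : u ≠ v) :
    ∑ ω : S → Option Bool, (if ∀ w, ω (π w) = ω w then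
      zr z ω * (if ω v = none ∧ ω u = none then (gm π z ω).adjugate v u else 0) else 0) =
      ∑ D : S → Bool, (if ∀ w, D ((swap u v * π) w) = D w then
        zd z D * (if D u = true ∧ D v = false then 1 else 0) else 0) := by
  have h1 := sumR1 huv (π := π) rfl z ∅
  have h2 := sumD1 (swap u v * π) u v z ∅
  simp only [notMem_empty, false_imp_iff, implies_true, if_true, mul_one, image_empty, if_false,
    or_false] at h1 h2
  rw [h1, h2]

end Crest.Agent.N337.Rep
end

-- ▼ part N337/Rep/Path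

/-!
# Row 337, RepStmt, part 3: path expansion of the cyclic amplitude
-/

set_option autoImplicit false
set_option linter.unusedSectionVars false

namespace Crest.Agent.N337.Rep

open Finset Equiv Matrix Crest.Agent.N337.Slot

section trace
variable {ι : Type} [Fintype ι] [DecidableEq ι]

lemma prod_ofFn_apply (n : ℕ) : ∀ (A : Fin (n + 1) → Matrix ι ι ℝ) (i j : ι),
    (List.ofFn A).reverse.prod i j = ∑ η : Fin n → ι, ∏ s : Fin (n + 1),
      A s ((Fin.snoc η i : Fin (n + 1) → ι) s) ((Fin.cons j η : Fin (n + 1) → ι) s) := by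
  induction n with
  | zero =>
    intro A i j
    simp [Fin.snoc]
  | succ n ih =>
    intro A i j
    rw [List.ofFn_succ, List.reverse_cons, List.prod_append, List.prod_singleton, Matrix.mul_apply,
      ← (Fin.consEquiv fun _ : Fin (n + 1) => ι).sum_comp, Fintype.sum_prod_type]
    refine sum_congr rfl fun k _ => ?_
    rw [ih, sum_mul]
    refine sum_congr rfl fun η _ => ?_
    rw [Fin.prod_univ_succ (n := n + 1), mul_comm]
    have e : (Fin.snoc ((Fin.consEquiv fun _ : Fin (n + 1) => ι) (k, η)) i : Fin (n + 2) → ι) =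
        Fin.cons k (Fin.snoc η i) := (Fin.cons_snoc_eq_snoc_cons k η i).symm
    rw [e]
    simp only [Fin.consEquiv_apply, Fin.cons_zero, Fin.cons_succ]

lemma trace_ofFn {T : ℕ} [NeZero T] (A : Fin T → Matrix ι ι ℝ) :
    ((List.ofFn A).reverse.prod).trace = ∑ η : Fin T → ι, ∏ s, A s (η (s + 1)) (η s) := by
  obtain ⟨n, rfl⟩ : ∃ n, T = n + 1 := Nat.exists_eq_succ_of_ne_zero (NeZero.ne T)
  rw [Matrix.trace, ← (Fin.consEquiv fun _ : Fin (n + 1) => ι).sum_comp, Fintype.sum_prod_type]
  refine sum_congr rfl fun j _ => ?_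
  rw [Matrix.diag_apply, prod_ofFn_apply]
  refine sum_congr rfl fun η _ => prod_congr rfl fun s _ => ?_
  simp only [Fin.consEquiv_apply]
  congr 1
  refine Fin.lastCases ?_ (fun t => ?_) s
  · simp
  · simp

end trace

variable {Λ : Type} [Fintype Λ] [DecidableEq Λ] {T : ℕ} [NeZero T]

/-- the slot permutation of one step. -/
def sg (x y : Λ) (b : Bool) : Perm Λ := if b = true then swap x y else 1

lemma sg_sg (x y : Λ) (b : Bool) (w : Λ) : sg x y b (sg x y b w) = w := by
  cases b <;> simp [sg]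

/-- the space-time permutation. -/
def Sg (ex ey : Fin T → Λ) (ξ : Fin T → Bool) : Perm (Fin T × Λ) :=
  Equiv.prodShear (Equiv.addRight 1) fun s => sg (ex s) (ey s) (ξ s)

lemma Sg_apply (ex ey : Fin T → Λ) (ξ : Fin T → Bool) (s : Fin T) (x : Λ) :
    Sg ex ey ξ (s, x) = (s + 1, sg (ex s) (ey s) (ξ s) x) := rfl

/-- weight of a bit. -/
def wb (p : ℝ) (b : Bool) : ℝ := if b = true then p else 1 - p

/-- weight of the bits. -/
def Pw (p : Fin T → ℝ) (ξ : Fin T → Bool) : ℝ := ∏ s, wb (p s) (ξ s)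

lemma cnt_comp (σ : Λ → Bool) (e : Perm Λ) : cnt (σ ∘ e) = cnt σ := by
  unfold cnt
  refine card_bij (fun x _ => e x) (fun x hx => by simpa using hx)
    (fun x _ y _ h => e.injective h) fun y hy => ⟨e.symm y, by simpa using hy, by simp⟩

lemma Y_apply (ζ : ℝ) (x y : Λ) (p : ℝ) (η D : Λ → Bool) :
    (fug ζ * step x y p : BOp Λ) η D =
      ∑ b : Bool, wb p b * ζ ^ cnt D * (if η = D ∘ sg x y b then 1 else 0) := by
  rw [fug, diagonal_mul, step, Fintype.sum_bool]
  simp only [Matrix.add_apply, Matrix.smul_apply, smul_eq_mul, swp, of_apply, one_apply, wb, sg,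
    if_true, Bool.false_eq_true, if_false, Perm.coe_one, Function.comp_id]
  by_cases h1 : η = D ∘ swap x y
  · have : cnt η = cnt D := by rw [h1, cnt_comp]
    rw [this]; ring
  · by_cases h2 : η = D
    · rw [h2]; ring
    · simp [h1, h2]

lemma pow_cnt (ζ : ℝ) (D : Λ → Bool) : ζ ^ cnt D = ∏ x, if D x = true then ζ else 1 := by
  rw [cnt, ← prod_filter, prod_const]

theorem amp_eq (ex ey : Fin T → Λ) (p ζ : Fin T → ℝ) (O : Fin T → BOp Λ) :
    amp (fun s => fug (ζ s) * step (ex s) (ey s) (p s)) O =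
      ∑ ξ : Fin T → Bool, Pw p ξ * ∑ D : Fin T × Λ → Bool, zd (fun v => ζ v.1) D *
        ∏ s, O s (fun x => D (s, x)) (fun x => D ((Sg ex ey ξ).symm (s, x))) := by
  rw [amp, trace_ofFn]
  have h1 : ∀ η : Fin T → Λ → Bool,
      ∏ s, (fug (ζ s) * step (ex s) (ey s) (p s) * O s : BOp Λ) (η (s + 1)) (η s) =
      ∑ ξ : Fin T → Bool, ∑ D : Fin T → Λ → Bool, ∏ s, (wb (p s) (ξ s) * ζ s ^ cnt (D s) *
        (if η (s + 1) = D s ∘ sg (ex s) (ey s) (ξ s) then 1 else 0) * O s (D s) (η s)) := by
    intro η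
    have e1 := fun ξ : Fin T → Bool => (Fintype.prod_sum fun (s : Fin T) (D : Λ → Bool) =>
      wb (p s) (ξ s) * ζ s ^ cnt D *
        (if η (s + 1) = D ∘ sg (ex s) (ey s) (ξ s) then 1 else 0) * O s D (η s)).symm
    have e2 := (Fintype.prod_sum fun (s : Fin T) (b : Bool) => ∑ D : Λ → Bool,
      wb (p s) b * ζ s ^ cnt D *
        (if η (s + 1) = D ∘ sg (ex s) (ey s) b then 1 else 0) * O s D (η s)).symm
    simp only [e1]
    rw [e2]
    refine prod_congr rfl fun s _ => ?_
    rw [Matrix.mul_apply, sum_comm]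
    exact sum_congr rfl fun D _ => by rw [Y_apply, sum_mul]
  simp only [h1]
  rw [sum_comm]
  refine sum_congr rfl fun ξ _ => ?_
  rw [sum_comm, mul_sum, ← (Equiv.curry (Fin T) Λ Bool).sum_comp]
  refine sum_congr rfl fun D _ => ?_
  simp only [prod_mul_distrib, prod_boole, mem_univ, true_imp_iff]
  have h2 : ∀ η : Fin T → Λ → Bool,
      (∀ s, η (s + 1) = (Equiv.curry (Fin T) Λ Bool) D s ∘ sg (ex s) (ey s) (ξ s)) ↔
      η = fun s x => D ((Sg ex ey ξ).symm (s, x)) := by
    intro η
    have h3 : ∀ s x, (Sg ex ey ξ).symm (s + 1, x) = (s, sg (ex s) (ey s) (ξ s) x) := fun s x => by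
      rw [Equiv.symm_apply_eq, Sg_apply, sg_sg]
    constructor
    · intro h
      funext s x
      obtain ⟨r, rfl⟩ : ∃ r, s = r + 1 := ⟨s - 1, by simp⟩
      rw [h, h3]; rfl
    · rintro rfl s
      funext x
      simp only [h3]; rfl
  simp only [h2, mul_ite, mul_one, mul_zero, ite_mul, zero_mul, sum_ite_eq', mem_univ, if_true]
  rw [Pw, zd, Fintype.prod_prod_type, mul_assoc]
  simp only [pow_cnt]; rfl

/-! ### the insertions -/

lemma prod_one_apply (D E : Fin T × Λ → Bool) (U : Finset (Fin T)) :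
    ∏ s ∈ U, (1 : BOp Λ) (fun x => D (s, x)) (fun x => E (s, x)) =
      if ∀ w : Fin T × Λ, w.1 ∈ U → D w = E w then 1 else 0 := by
  simp only [one_apply, prod_boole, funext_iff, Prod.forall]
  congr 1
  exact propext ⟨fun h s x hs => h s hs x, fun h s hs x => h s x hs⟩

lemma inv_iff {S κ : Type} (π τ : Perm S) (D : S → κ) :
    (∀ w, D (τ w) = D (π.symm w)) ↔ ∀ w, D ((τ * π) w) = D w :=
  ⟨fun h w => by rw [Perm.mul_apply, h, symm_apply_apply],
    fun h w => by rw [← h (π.symm w), Perm.mul_apply, apply_symm_apply]⟩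

lemma inv_iff' {S κ : Type} (π : Perm S) (D : S → κ) :
    (∀ w, D w = D (π.symm w)) ↔ ∀ w, D (π w) = D w := by
  simpa using inv_iff π 1 D

lemma ins0_eq (π : Perm (Fin T × Λ)) (D : Fin T × Λ → Bool) :
    ∏ s, (1 : BOp Λ) (fun x => D (s, x)) (fun x => D (π.symm (s, x))) =
      if ∀ w, D (π w) = D w then 1 else 0 := by
  rw [prod_one_apply D fun w => D (π.symm w)]
  simp only [mem_univ, true_imp_iff, inv_iff']

lemma ins1_eq (π : Perm (Fin T × Λ)) (D : Fin T × Λ → Bool) (s : Fin T) (A : Finset Λ) :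
    ∏ r, ins1 s (nb A) r (fun x => D (r, x)) (fun x => D (π.symm (r, x))) =
      if ∀ w, D (π w) = D w then
        (if ∀ w ∈ A.image (fun x => (s, x)), D w = true then 1 else 0) else 0 := by
  have h : ∀ r, ins1 s (nb A) r (fun x => D (r, x)) (fun x => D (π.symm (r, x))) =
      (1 : BOp Λ) (fun x => D (r, x)) (fun x => D (π.symm (r, x))) *
        if r = s then (if ∀ w ∈ A.image (fun x => (s, x)), D w = true then 1 else 0) else 1 := by
    intro r
    unfold ins1
    split_ifs with h1 h2
    · subst h1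
      rw [nb, diagonal_apply, one_apply,
        if_pos (c := ∀ x ∈ A, D (r, x) = true) (by simpa using h2), mul_one]
    · subst h1
      rw [nb, diagonal_apply, if_neg (c := ∀ x ∈ A, D (r, x) = true) (by simpa using h2)]
      simp
    · rw [mul_one]
  simp only [h, prod_mul_distrib, ins0_eq, prod_ite_eq', mem_univ, if_true, ite_mul, one_mul,
    zero_mul]

lemma prod_ins2 {s t : Fin T} (hst : s ≠ t) (A B : BOp Λ) (D E : Fin T → Λ → Bool) :
    ∏ r, ins2 s A t B r (D r) (E r) =
      A (D s) (E s) * (B (D t) (E t) *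
        ∏ r ∈ (univ.erase s).erase t, (1 : BOp Λ) (D r) (E r)) := by
  rw [← mul_prod_erase _ _ (mem_univ s), ← mul_prod_erase (univ.erase s) _
    (mem_erase.2 ⟨hst.symm, mem_univ t⟩)]
  simp only [ins2, if_true, if_neg hst.symm]
  congr 2
  refine prod_congr rfl fun r hr => ?_
  rw [if_neg (ne_of_mem_erase (mem_of_mem_erase hr)), if_neg (ne_of_mem_erase hr)]

lemma cr_apply (x : Λ) (σ τ : Λ → Bool) : cr x σ τ =
    if σ x = true ∧ τ x = false ∧ ∀ y, y ≠ x → σ y = τ y then 1 else 0 := by
  have : cr x σ τ = ∏ y, if (if y = x then σ y = true ∧ τ y = false else σ y = τ y) then 1 else 0 :=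
    prod_congr rfl fun y _ => by by_cases h : y = x <;> simp [h]
  rw [this, prod_boole]
  congr 1
  refine propext ⟨fun h => ⟨?_, ?_, fun y hy => ?_⟩, fun h y _ => ?_⟩
  · exact (by simpa using h x : _ ∧ _).1
  · exact (by simpa using h x : _ ∧ _).2
  · simpa [hy] using h y
  · by_cases hy : y = x
    · simp [hy, h.1, h.2.1]
    · simp [hy, h.2.2 y hy]

lemma an_apply (x : Λ) (σ τ : Λ → Bool) : an x σ τ =
    if σ x = false ∧ τ x = true ∧ ∀ y, y ≠ x → σ y = τ y then 1 else 0 := by
  have : an x σ τ = ∏ y, if (if y = x then σ y = false ∧ τ y = true else σ y = τ y) then 1 else 0 :=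
    prod_congr rfl fun y _ => by by_cases h : y = x <;> simp [h]
  rw [this, prod_boole]
  congr 1
  refine propext ⟨fun h => ⟨?_, ?_, fun y hy => ?_⟩, fun h y _ => ?_⟩
  · exact (by simpa using h x : _ ∧ _).1
  · exact (by simpa using h x : _ ∧ _).2
  · simpa [hy] using h y
  · by_cases hy : y = x
    · simp [hy, h.1, h.2.1]
    · simp [hy, h.2.2 y hy]

lemma ins2_eq {s t : Fin T} (hst : s ≠ t) (x y : Λ) (π : Perm (Fin T × Λ))
    (D : Fin T × Λ → Bool) :
    ∏ r, ins2 s (cr x) t (an y) r (fun a => D (r, a)) (fun a => D (π.symm (r, a))) =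
      if ∀ w, D ((swap (s, x) (t, y) * π) w) = D w then
        (if D (s, x) = true ∧ D (t, y) = false then 1 else 0) else 0 := by
  rw [prod_ins2 hst (cr x) (an y) (fun r a => D (r, a)) (fun r a => D (π.symm (r, a))),
    prod_one_apply D fun w => D (π.symm w), cr_apply, an_apply]
  simp only [← inv_iff, ite_zero_mul_ite_zero, mul_one, ← ite_and]
  have huv : ((s, x) : Fin T × Λ) ≠ (t, y) := fun h => hst (congrArg Prod.fst h)
  congr 1
  refine propext ⟨fun ⟨⟨h1, h2, h3⟩, ⟨h4, h5, h6⟩, h7⟩ => ⟨fun w => ?_, h1, h4⟩,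
    fun ⟨h1, h2, h3⟩ => ⟨⟨h2, ?_, fun a ha => ?_⟩, ⟨h3, ?_, fun a ha => ?_⟩, fun w hw => ?_⟩⟩
  · by_cases hu : w = (s, x)
    · rw [hu, swap_apply_left, h4, h2]
    · by_cases hv : w = (t, y)
      · rw [hv, swap_apply_right, h1, h5]
      · rw [swap_apply_of_ne_of_ne hu hv]
        obtain ⟨r, a⟩ := w
        by_cases hs : r = s
        · subst hs; exact h3 a fun h => hu (by rw [h])
        · by_cases ht : r = t
          · subst ht; exact h6 a fun h => hv (by rw [h])
          · exact h7 _ (by simp [hs, ht])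
  · rw [← h1, swap_apply_left, h3]
  · rw [← h1, swap_apply_of_ne_of_ne (by simp [ha]) (by simp [hst])]
  · rw [← h1, swap_apply_right, h2]
  · rw [← h1, swap_apply_of_ne_of_ne (by simp [hst.symm]) (by simp [ha])]
  · have h := mem_erase.1 hw
    rw [← h1, swap_apply_of_ne_of_ne (fun e => (mem_erase.1 h.2).1 (by rw [e]))
      (fun e => h.1 (by rw [e]))]

lemma ins2_eq_l {s t : Fin T} (hst : s ≠ t) (x y : Λ) (π : Perm (Fin T × Λ))
    (D : Fin T × Λ → Bool) {A : Finset Λ} (hx : x ∉ A) :
    ∏ r, ins2 s (cr x * nb A) t (an y) r (fun a => D (r, a)) (fun a => D (π.symm (r, a))) =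
      if ∀ w, D ((swap (s, x) (t, y) * π) w) = D w then
        (if D (s, x) = true ∧ D (t, y) = false then 1 else 0) *
          (if ∀ w ∈ A.image (fun a => (s, a)), D w = true then 1 else 0) else 0 := by
  have h := ins2_eq hst x y π D
  rw [prod_ins2 hst (cr x) (an y) (fun r a => D (r, a)) (fun r a => D (π.symm (r, a)))] at h
  rw [prod_ins2 hst (cr x * nb A) (an y) (fun r a => D (r, a)) (fun r a => D (π.symm (r, a))),
    nb, mul_diagonal, mul_right_comm, h]
  split_ifs with h1 h2 h3 h4 h5 <;> try simp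
  · refine h4 fun w hw => ?_
    obtain ⟨a, ha, rfl⟩ := mem_image.1 hw
    rw [← h3 a ha]
    beta_reduce
    rw [← (inv_iff _ _ _).2 h1,
      swap_apply_of_ne_of_ne (by rintro ⟨rfl⟩; exact hx ha) (by simp [hst])]
  · refine h3 fun a ha => ?_
    beta_reduce
    rw [← (inv_iff _ _ _).2 h1,
      swap_apply_of_ne_of_ne (by rintro ⟨rfl⟩; exact hx ha) (by simp [hst])]
    exact h5 _ (mem_image_of_mem _ ha)

lemma ins2_eq_r {s t : Fin T} (hst : s ≠ t) (x y : Λ) (π : Perm (Fin T × Λ))
    (D : Fin T × Λ → Bool) (A : Finset Λ) :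
    ∏ r, ins2 s (cr x) t (nb A * an y) r (fun a => D (r, a)) (fun a => D (π.symm (r, a))) =
      if ∀ w, D ((swap (s, x) (t, y) * π) w) = D w then
        (if D (s, x) = true ∧ D (t, y) = false then 1 else 0) *
          (if ∀ w ∈ A.image (fun a => (t, a)), D w = true then 1 else 0) else 0 := by
  have h := ins2_eq hst x y π D
  rw [prod_ins2 hst (cr x) (an y) (fun r a => D (r, a)) (fun r a => D (π.symm (r, a)))] at h
  rw [prod_ins2 hst (cr x) (nb A * an y) (fun r a => D (r, a)) (fun r a => D (π.symm (r, a))),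
    nb, diagonal_mul, mul_assoc, mul_left_comm, h]
  simp only [forall_mem_image]
  split_ifs <;> simp


lemma wb_nonneg {p : ℝ} (h : 0 ≤ p ∧ p ≤ 1) (b : Bool) : 0 ≤ wb p b := by
  unfold wb; split_ifs <;> linarith [h.1, h.2]

lemma Pw_nonneg {p : Fin T → ℝ} (h : ∀ s, 0 ≤ p s ∧ p s ≤ 1) (ξ : Fin T → Bool) : 0 ≤ Pw p ξ :=
  prod_nonneg fun s _ => wb_nonneg (h s) _

lemma sum_Pw (p : Fin T → ℝ) : ∑ ξ : Fin T → Bool, Pw p ξ = 1 := by
  have := prod_univ_sum (fun _ : Fin T => (univ : Finset Bool)) fun s b => wb (p s) b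
  rw [Fintype.piFinset_univ] at this
  unfold Pw
  rw [← this]
  exact prod_eq_one fun s _ => by simp [wb]

lemma sum_Pw_true (p : Fin T → ℝ) (s : Fin T) :
    ∑ ξ : Fin T → Bool, Pw p ξ * (if ξ s = true then 1 else 0) = p s := by
  have := prod_univ_sum (fun _ : Fin T => (univ : Finset Bool))
    fun r b => wb (p r) b * if r = s then (if b = true then 1 else 0) else 1
  rw [Fintype.piFinset_univ] at this
  simp only [prod_mul_distrib, prod_ite_eq', mem_univ, if_true] at this
  unfold Pw
  rw [← this, prod_eq_single s]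
  · simp [wb]
  · intro r _ hr; simp [wb, hr]
  · simp

/-- amplitudes with nonnegative insertions are nonnegative. -/
lemma amp_nonneg (ex ey : Fin T → Λ) {p ζ : Fin T → ℝ} (hp : ∀ s, 0 ≤ p s ∧ p s ≤ 1)
    (hζ : ∀ s, 0 ≤ ζ s) {O : Fin T → BOp Λ} (hO : ∀ s σ τ, 0 ≤ O s σ τ) :
    0 ≤ amp (fun s => fug (ζ s) * step (ex s) (ey s) (p s)) O := by
  rw [amp_eq]
  refine sum_nonneg fun ξ _ => mul_nonneg (Pw_nonneg hp ξ) (sum_nonneg fun D _ =>
    mul_nonneg (prod_nonneg fun v _ => ?_) (prod_nonneg fun s _ => hO _ _ _))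
  split_ifs
  exacts [hζ _, zero_le_one]

end Crest.Agent.N337.Rep
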